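import Crest.Agent.X262.Vb10.Gw
import Crest.Agent.X262.Vb37.Univ
import Crest.Agent.X262.Bub96.NormB

/-!
# Row 262, road B (helper10): the inputs `Mob`, `ExNrm` of `Vb10/Gw`
-/

set_option autoImplicit false

noncomputable section

namespace Crest.Agent.X262.Vb10

open Crest.Agent.X262.Vb

variable {J : Type} [Fintype J] [DecidableEq J] (io : J → Type) [∀ j, Fintype (io j)]
  [∀ j, DecidableEq (io j)] (d : J → ℕ)

theorem mob : Mob io d where
  trans := Vb37.eqv_trans
  symm := Vb37.eqv_symm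
  map := Vb37.eqv_map
  cfg := Vb37.eqv_cfg
  nrm h := Vb37.eqv_nrmUp h
  cfg_map ξ α := Vb37.cfg_map α ξ
  nz ξ _ := Vb37.nz_pt ξ _
  uniq := Vb37.univ_unique

/-- norming points exist over a finite extension -/
theorem exNrm : ExNrm := by
  intro J _ _ io _ _ d M K _ _ _ _ ξ N
  obtain ⟨L, _, _, _, _, _, n, η, h1, h2⟩ := Bub96.exists_nrm ξ N
  have h0 : 0 < X277.BD.deg (IsScalarTower.toAlgHom ℂ K L) := by
    rw [X277.BD.deg_tower]
    exact Module.finrank_pos
  exact ⟨L, _, _, eft_of_deg _ h0, _, n, η, h0, h1, h2⟩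

end Crest.Agent.X262.Vb10
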