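import Crest.Agent.X277.BD.Num

/-!
# Row 262, road B (helper10): degrees of field embeddings, amalgamation
-/

set_option autoImplicit false
set_option linter.style.haveILetI false

noncomputable section

namespace Crest.Agent.X262.Vb10

open Crest.Agent.X277 Crest.Agent.X277.BD TensorProduct

variable {K₀ K L : Type} [Field K₀] [Algebra ℂ K₀] [Field K] [Algebra ℂ K] [Field L] [Algebra ℂ L]

/-- the degree is multiplicative -/
theorem deg_comp (α : K₀ →ₐ[ℂ] K) (β : K →ₐ[ℂ] L) : deg (β.comp α) = deg α * deg β := by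
  letI := α.toRingHom.toAlgebra
  letI := β.toRingHom.toAlgebra
  letI := (β.comp α).toRingHom.toAlgebra
  haveI : IsScalarTower K₀ K L := IsScalarTower.of_algebraMap_eq fun _ => rfl
  exact (Module.finrank_mul_finrank K₀ K L).symm

theorem deg_equiv (e : K₀ ≃ₐ[ℂ] K) : deg (e : K₀ →ₐ[ℂ] K) = 1 := by
  have h := deg_comp (e : K₀ →ₐ[ℂ] K) (e.symm : K →ₐ[ℂ] K₀)
  rw [show (e.symm : K →ₐ[ℂ] K₀).comp (e : K₀ →ₐ[ℂ] K) = AlgHom.id ℂ K₀ from
    AlgHom.ext fun x => e.symm_apply_apply x, deg_id] at h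
  exact Nat.eq_one_of_mul_eq_one_right h.symm

/-- a finite extension of a finitely generated field is finitely generated -/
theorem eft_of_deg [Algebra.EssFiniteType ℂ K] (α : K →ₐ[ℂ] L) (h : 0 < deg α) :
    Algebra.EssFiniteType ℂ L := by
  letI := α.toRingHom.toAlgebra
  haveI : IsScalarTower ℂ K L := IsScalarTower.of_algebraMap_eq fun c => (α.commutes c).symm
  haveI : Module.Finite K L := Module.finite_of_finrank_pos h
  exact Algebra.EssFiniteType.comp ℂ K L

/-- base change of a finite extension -/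
theorem exists_amal (θ : K₀ →ₐ[ℂ] K) (τ : K₀ →ₐ[ℂ] L) (hτ : 0 < deg τ) :
    ∃ (F : Type) (_ : Field F) (_ : Algebra ℂ F) (a : K →ₐ[ℂ] F) (b : L →ₐ[ℂ] F),
      0 < deg a ∧ a.comp θ = b.comp τ := by
  letI := θ.toRingHom.toAlgebra
  letI := τ.toRingHom.toAlgebra
  haveI : IsScalarTower ℂ K₀ K := IsScalarTower.of_algebraMap_eq fun c => (θ.commutes c).symm
  haveI : IsScalarTower ℂ K₀ L := IsScalarTower.of_algebraMap_eq fun c => (τ.commutes c).symm
  haveI : Module.Finite K₀ L := Module.finite_of_finrank_pos hτ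
  obtain ⟨m, hm⟩ := Ideal.exists_maximal (K ⊗[K₀] L)
  letI : Field ((K ⊗[K₀] L) ⧸ m) := Ideal.Quotient.field m
  let a : K →ₐ[ℂ] ((K ⊗[K₀] L) ⧸ m) := IsScalarTower.toAlgHom ℂ K _
  let b : L →ₐ[ℂ] ((K ⊗[K₀] L) ⧸ m) :=
    { (Ideal.Quotient.mk m).comp
        (Algebra.TensorProduct.includeRight (R := K₀) (A := K) (B := L)).toRingHom with
      commutes' := fun c => by
        change Ideal.Quotient.mk m ((1 : K) ⊗ₜ[K₀] algebraMap ℂ L c) =
          Ideal.Quotient.mk m (algebraMap ℂ K c ⊗ₜ[K₀] (1 : L))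
        rw [IsScalarTower.algebraMap_apply ℂ K₀ L, IsScalarTower.algebraMap_apply ℂ K₀ K,
          Algebra.algebraMap_eq_smul_one (A := L), Algebra.algebraMap_eq_smul_one (A := K),
          smul_tmul] }
  refine ⟨_, inferInstance, inferInstance, a, b, ?_, AlgHom.ext fun c => ?_⟩
  · rw [deg_tower]
    exact Module.finrank_pos
  · change Ideal.Quotient.mk m (algebraMap K₀ K c ⊗ₜ[K₀] (1 : L)) =
      Ideal.Quotient.mk m ((1 : K) ⊗ₜ[K₀] algebraMap K₀ L c)
    rw [Algebra.algebraMap_eq_smul_one (A := L), Algebra.algebraMap_eq_smul_one (A := K),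
      smul_tmul]

end Crest.Agent.X262.Vb10
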