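import Crest.Agent.X262.Vb.Defs
import Crest.Agent.X262.Vb10.Amal

/-!
# Row 262, road B (helper10): the invariants are well defined

From the calculus of data (`Mob`), the invariance of `vir` (`Inv`), `ExNrm`.
-/

set_option autoImplicit false
set_option linter.unusedSectionVars false

noncomputable section

namespace Crest.Agent.X262.Vb10

open Crest.Agent.X277 Crest.Agent.X277.BD Polynomial
open Crest.Agent.X262.Hb Crest.Agent.X262.Vb

variable {J : Type} [Fintype J] [DecidableEq J] {io : J → Type} [∀ j, Fintype (io j)]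
  [∀ j, DecidableEq (io j)] {A : Type} [Fintype A] {d : J → ℕ}

section Dat

variable {I I' K L F : Type} [Field K] [Algebra ℂ K] [Field L] [Algebra ℂ L] [Field F]
  [Algebra ℂ F]

theorem dat_ext {ξ η : Dat io d I K} (h1 : ξ.f = η.f) (h2 : ξ.x = η.x) : ξ = η := by
  cases ξ; cases η; cases h1; cases h2; rfl

theorem map_map (ξ : Dat io d I K) (α : K →ₐ[ℂ] L) (β : L →ₐ[ℂ] F) :
    (ξ.map α).map β = ξ.map (β.comp α) := by
  refine dat_ext (_root_.funext fun j => _root_.funext fun i => ?_) (_root_.funext fun q => ?_)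
  · exact Polynomial.map_map _ _ _
  · exact Option.map_map _ _ _

theorem map_res (ξ : Dat io d I K) (α : K →ₐ[ℂ] L) (g : I' → I) :
    (ξ.res g).map α = (ξ.map α).res g := rfl

theorem nrmUp_map {ξ : Dat io d I K} {N : ℕ} (h : ξ.NrmUp N) (α : K →ₐ[ℂ] L) :
    (ξ.map α).NrmUp N := by
  intro κ hκ F _ _ β W σ h1 h2
  rw [map_map] at h2 ⊢
  exact h κ hκ F _ W σ h1 h2

theorem nrmUp_mono {ξ : Dat io d I K} {N N' : ℕ} (h : ξ.NrmUp N) (hN : N' ≤ N) : ξ.NrmUp N' :=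
  fun κ hκ => h κ fun j => (hκ j).trans hN

theorem nrmUp_of_res {ξ : Dat io d I K} {g : I' → I} {N : ℕ} (h : (ξ.res g).NrmUp N) :
    ξ.NrmUp N :=
  fun κ hκ F _ _ β W σ h1 h2 => h κ hκ F β W σ h1 fun q => h2 (g q)

theorem eqv_res {ξ η : Dat io d I K} (h : ξ.Eqv η) (g : I' → I) : (ξ.res g).Eqv (η.res g) := by
  obtain ⟨m, c, h1, h2, h3, h4⟩ := h
  exact ⟨m, c, h1, h2, h3, fun q => h4 (g q)⟩

theorem hx_ne (t : Option K) : hx t ≠ 0 := by
  rcases t with _ | t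
  · exact fun h => one_ne_zero (congrFun h 0)
  · exact fun h => one_ne_zero (congrFun h 1)

theorem exists_hx {v : Fin 2 → K} (hv : v ≠ 0) : ∃ (t : Option K) (u : K), u ≠ 0 ∧ hx t = u • v := by
  by_cases h : v 1 = 0
  · have h0 : v 0 ≠ 0 := fun h0 => hv (_root_.funext fun i => by fin_cases i <;> assumption)
    refine ⟨none, (v 0)⁻¹, inv_ne_zero h0, _root_.funext fun i => ?_⟩
    fin_cases i <;> simp [hx, h, h0]
  · refine ⟨some (v 0 / v 1), (v 1)⁻¹, inv_ne_zero h, _root_.funext fun i => ?_⟩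
    fin_cases i <;> simp [hx, h, div_eq_inv_mul]

/-- an equivalence on a subfamily extends to all points -/
theorem eqv_ext {M : Type} {η : Dat io d (M ⊕ I') K} {ξ : Dat io d I K} {m : M → I}
    (h : (η.res Sum.inl).Eqv (ξ.res m)) :
    ∃ ζ : Dat io d (I ⊕ I') K, ζ.res Sum.inl = ξ ∧ η.Eqv (ζ.res (Sum.map m id)) := by
  obtain ⟨g, c, h1, h2, h3, h4⟩ := h
  have hu : IsUnit g.det := isUnit_iff_ne_zero.2 h1
  have key : ∀ t : Option K, ∃ (s : Option K) (u : K), g.mulVec (hx s) = u • hx t := fun t => by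
    have hne : g⁻¹.mulVec (hx t) ≠ 0 := fun h0 => hx_ne t (by
      have := congrArg g.mulVec h0
      rwa [Matrix.mulVec_mulVec, Matrix.mul_nonsing_inv _ hu, Matrix.one_mulVec,
        Matrix.mulVec_zero] at this)
    obtain ⟨s, u, -, hs⟩ := exists_hx hne
    exact ⟨s, u, by rw [hs, Matrix.mulVec_smul, Matrix.mulVec_mulVec, Matrix.mul_nonsing_inv _ hu,
      Matrix.one_mulVec]⟩
  choose s u hs using key
  refine ⟨⟨ξ.f, Sum.elim ξ.x fun k => s (η.x (Sum.inr k)), ξ.cp⟩, rfl, g, c, h1, h2, h3, ?_⟩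
  rintro (q | k)
  · exact h4 q
  · exact ⟨_, hs _⟩

end Dat

variable (io d) in
/-- the calculus of data (helper37) -/
structure Mob : Prop where
  trans : ∀ {I K : Type} [Field K] [Algebra ℂ K] {ξ η ζ : Dat io d I K},
    ξ.Eqv η → η.Eqv ζ → ξ.Eqv ζ
  symm : ∀ {I K : Type} [Field K] [Algebra ℂ K] {ξ η : Dat io d I K}, ξ.Eqv η → η.Eqv ξ
  map : ∀ {I K L : Type} [Field K] [Algebra ℂ K] [Field L] [Algebra ℂ L] {ξ η : Dat io d I K},
    ξ.Eqv η → ∀ α : K →ₐ[ℂ] L, (ξ.map α).Eqv (η.map α)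
  cfg : ∀ {I K : Type} [Fintype I] [Field K] [Algebra ℂ K] {ξ η : Dat io d I K}, ξ.Eqv η →
    ∃ c : I → J → K, (∀ q j, c q j ≠ 0) ∧ η.cfg = ξ.cfg.gau c
  nrm : ∀ {I K : Type} [Field K] [Algebra ℂ K] {ξ η : Dat io d I K} {N : ℕ}, ξ.Eqv η →
    ξ.NrmUp N → η.NrmUp N
  cfg_map : ∀ {I K L : Type} [Fintype I] [Field K] [Algebra ℂ K] [Field L] [Algebra ℂ L]
    (ξ : Dat io d I K) (α : K →ₐ[ℂ] L), (ξ.map α).cfg = ξ.cfg.map α
  nz : ∀ {I K : Type} [Fintype I] [Field K] [Algebra ℂ K] (ξ : Dat io d I K), ξ.cfg.NZ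
  uniq : ∀ {M K L : Type} [Fintype M] [Field K] [Algebra ℂ K] [Field L] [Algebra ℂ L]
    {ξ : Dat io d M K} {η : Dat io d M L}, ξ.Univ → η.Univ →
    ∃ e : K ≃ₐ[ℂ] L, (ξ.map (e : K →ₐ[ℂ] L)).Eqv η

variable (B : Th) (T : Tgt io A)

variable (d) in
/-- the invariance properties of the virtual number (helpers 90, 40) -/
structure Inv (N : ℕ) {M : Type} (Φ : MFam B io M) : Prop where
  gau : ∀ {I K : Type} [Fintype I] [Field K] [Algebra ℂ K] [Algebra.EssFiniteType ℂ K]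
    (z : Cfg io I K) (m : M → I) (c : I → J → K), z.NZ → (∀ q j, c q j ≠ 0) →
    vir B T (z.gau c) m Φ = vir B T z m Φ
  res : ∀ {I I' K : Type} [Fintype I] [Fintype I'] [Field K] [Algebra ℂ K]
    [Algebra.EssFiniteType ℂ K] (ξ : Dat io d I' K) (g : I → I') (m : M → I),
    (ξ.res g).NrmUp N → vir B T ξ.cfg (fun q => g (m q)) Φ = vir B T (ξ.res g).cfg m Φ
  pb : ∀ {I K L : Type} [Fintype I] [Field K] [Algebra ℂ K] [Algebra.EssFiniteType ℂ K] [Field L]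
    [Algebra ℂ L] [Algebra.EssFiniteType ℂ L] (θ : K →ₐ[ℂ] L) (z : Cfg io I K) (m : M → I),
    z.NZ → vir B T (z.map θ) m Φ = deg θ * vir B T z m Φ

variable {B T} {M : Type} {Φ : MFam B io M} {N : ℕ}

section Cmp

variable {I I' K L : Type} [Fintype I] [Fintype I'] [Field K] [Algebra ℂ K]
  [Algebra.EssFiniteType ℂ K] [Field L] [Algebra ℂ L] [Algebra.EssFiniteType ℂ L]

theorem vir_eqv (hM : Mob io d) (hI : Inv d B T N Φ) {ξ η : Dat io d I K} (h : ξ.Eqv η)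
    (m : M → I) : vir B T η.cfg m Φ = vir B T ξ.cfg m Φ := by
  obtain ⟨c, hc, e⟩ := hM.cfg h
  rw [e, hI.gau _ _ _ (hM.nz ξ) hc]

theorem vir_map (hM : Mob io d) (hI : Inv d B T N Φ) (ξ : Dat io d I K) (θ : K →ₐ[ℂ] L)
    (m : M → I) : vir B T (ξ.map θ).cfg m Φ = deg θ * vir B T ξ.cfg m Φ := by
  rw [hM.cfg_map, hI.pb _ _ _ (hM.nz ξ)]

/-- two norming data with equivalent marked data have the same virtual number -/
theorem vir_cmp (hM : Mob io d) (hI : Inv d B T N Φ) {η : Dat io d (M ⊕ I') K}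
    {ξ : Dat io d I K} {m : M → I} [Fintype M] (h : (η.res Sum.inl).Eqv (ξ.res m))
    (hη : η.NrmUp N) (hξ : ξ.NrmUp N) : vir B T ξ.cfg m Φ = vir B T η.cfg Sum.inl Φ := by
  obtain ⟨ζ, rfl, h2⟩ := eqv_ext h
  rw [← hI.res ζ Sum.inl m hξ, ← vir_eqv hM hI h2, ← hI.res ζ _ Sum.inl (hM.nrm h2 hη)]
  rfl

end Cmp

variable [Fintype M]

/-- one universal datum gives the invariant -/
theorem exists_isGW (hE : ExNrm) (hM : Mob io d) (hI : Inv d B T N Φ) :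
    ∃ v, ∀ (K K₀ I : Type) [Field K] [Algebra ℂ K] [Algebra.EssFiniteType ℂ K] [Field K₀]
      [Algebra ℂ K₀] [Algebra.EssFiniteType ℂ K₀] [Fintype I] (ξ : Dat io d I K) (m : M → I)
      (θ : K₀ →ₐ[ℂ] K), Over ξ m θ → ξ.NrmUp N → vir B T ξ.cfg m Φ = deg θ * v := by
  by_cases hU : ∃ (K₁ : Type) (_ : Field K₁) (_ : Algebra ℂ K₁) (_ : Algebra.EssFiniteType ℂ K₁)
    (ξ₁ : Dat io d M K₁), ξ₁.Univ
  swap
  · exact ⟨0, fun K K₀ I _ _ _ _ _ _ _ ξ m θ ⟨ξ₀, h0, _⟩ _ => (hU ⟨K₀, _, _, ‹_›, ξ₀, h0⟩).elim⟩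
  obtain ⟨K₁, _, _, _, ξ₁, h1⟩ := hU
  obtain ⟨L, _, _, _, τ, n, η, hτ, hη, hN⟩ := hE ξ₁ N
  refine ⟨vir B T η.cfg Sum.inl Φ / deg τ, fun K K₀ I _ _ _ _ _ _ _ ξ m θ ⟨ξ₀, h0, hq⟩ hξ => ?_⟩
  obtain ⟨e, he⟩ := hM.uniq h1 h0
  obtain ⟨F, _, _, a, b, ha, hab⟩ := exists_amal (θ.comp (e : K₁ →ₐ[ℂ] K₀)) τ hτ
  have := eft_of_deg a ha
  have h3 : ((η.map b).res Sum.inl).Eqv ((ξ.map a).res m) := by
    rw [← map_res, hη, map_map, ← hab, ← map_map, ← map_map, ← map_res]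
    exact hM.map (hM.trans (hM.map he θ) hq) a
  have h4 := vir_cmp hM hI h3 (nrmUp_map hN b) (nrmUp_map hξ a)
  rw [vir_map hM hI, vir_map hM hI] at h4
  have h5 : (deg a : ℂ) * deg θ = deg b * deg τ := by
    have := congrArg deg hab
    rw [deg_comp, deg_comp, deg_comp, deg_equiv, one_mul] at this
    exact_mod_cast (mul_comm _ _).trans (this.trans (mul_comm _ _))
  have ha' : (deg a : ℂ) ≠ 0 := Nat.cast_ne_zero.2 ha.ne'
  have hτ' : (deg τ : ℂ) ≠ 0 := Nat.cast_ne_zero.2 hτ.ne'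
  refine mul_left_cancel₀ ha' ?_
  rw [h4, ← mul_assoc, h5]
  field_simp

theorem over_inl {K L I : Type} [Field K] [Algebra ℂ K] [Field L] [Algebra ℂ L]
    {ξ : Dat io d M K} (h : ξ.Univ) {τ : K →ₐ[ℂ] L} {η : Dat io d (M ⊕ I) L}
    (hη : η.res Sum.inl = ξ.map τ) (hM : Mob io d) : Over η Sum.inl τ := by
  refine ⟨ξ, h, ?_⟩
  rw [hη]
  obtain ⟨e, he⟩ := hM.uniq h h
  exact hM.map (hM.trans (hM.symm he) he) τ

/-- the invariant is unique as soon as a universal datum exists -/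
theorem isGW_unique (hE : ExNrm) (hM : Mob io d) {K : Type} [Field K] [Algebra ℂ K]
    [Algebra.EssFiniteType ℂ K] {ξ : Dat io d M K} (h : ξ.Univ) {v w : ℂ}
    (hv : IsGW B T d Φ v) (hw : IsGW B T d Φ w) : v = w := by
  obtain ⟨N₁, h1⟩ := hv
  obtain ⟨N₂, h2⟩ := hw
  obtain ⟨L, _, _, _, τ, n, η, hτ, hη, hN⟩ := hE ξ (max N₁ N₂)
  have ho := over_inl h hη hM
  have := (h1 L K _ η _ τ ho (nrmUp_mono hN (le_max_left _ _))).symm.trans
    (h2 L K _ η _ τ ho (nrmUp_mono hN (le_max_right _ _)))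
  exact mul_left_cancel₀ (Nat.cast_ne_zero.2 hτ.ne') this

/-- every norming datum over the universal one computes the invariant -/
theorem vir_eq_GW (hE : ExNrm) (hM : Mob io d) (hI : Inv d B T N Φ) {K K₀ I : Type} [Field K]
    [Algebra ℂ K] [Algebra.EssFiniteType ℂ K] [Field K₀] [Algebra ℂ K₀]
    [Algebra.EssFiniteType ℂ K₀] [Fintype I] {ξ : Dat io d I K} {m : M → I} {θ : K₀ →ₐ[ℂ] K}
    (ho : Over ξ m θ) (hN : ξ.NrmUp N) : vir B T ξ.cfg m Φ = deg θ * GW B T d Φ := by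
  obtain ⟨v, hv⟩ := exists_isGW hE hM hI
  obtain ⟨ξ₀, h0, -⟩ := id ho
  have hu : ∃! v, IsGW B T d Φ v := ⟨v, ⟨N, hv⟩, fun w hw => isGW_unique hE hM h0 hw ⟨N, hv⟩⟩
  rw [hv K K₀ I ξ m θ ho hN, GW, dif_pos hu, isGW_unique hE hM h0 ⟨N, hv⟩ hu.choose_spec.1]

/-- the invariants are well defined -/
theorem isGW_GW (hE : ExNrm) (hM : Mob io d) (hI : Inv d B T N Φ) : IsGW B T d Φ (GW B T d Φ) :=
  ⟨N, fun _ _ _ _ _ _ _ _ _ _ _ _ _ ho hN => vir_eq_GW hE hM hI ho hN⟩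

end Crest.Agent.X262.Vb10
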